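import Vale.Agent.P281.H303.TD.Core
import Vale.Agent.P281.H303.UD.Spec
import Vale.Agent.P281.H364.UD.Bridge
import Vale.Agent.P281.H511.UD.Spec

/-!
# P281, project T-UD (helper383): the assembly (port of `H303/TD/Core.lean`)
-/

open Set Filter Metric Vale.Agent.P281 Vale.Agent.P281.H713
open Vale.Agent.P272.K (Chart IsKahler IsHermitian)
open Vale.Agent.P281.MF Vale.Agent.P281.ISO
open Vale.Agent.P281.H713.TZ Vale.Agent.P281.H64
open Vale.Agent.P281.H64.Gen
open Vale.Agent.P281.H64.Thin (IsThinSet)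
open Vale.Agent.P281.H64.TU (Tame KTame RelFormT HasFormsT IsGen)
open Vale.Agent.P281.H603.TE (core)
open Vale.Agent.P281.H64.TD (Cub FibInStmt)
open Vale.Agent.P281.H303.UD
open scoped Topology ContDiff Manifold

set_option linter.all false

noncomputable section

namespace Vale.Agent.P281.H383.UD

open Vale.Agent.P281.H303.UF Vale.Agent.P281.H303.TD

/-! ### Immersed coverings are not degenerate -/

theorem nDegE_of_imm {n p d m : ℕ} {Z Y : Type} [TopologicalSpace Z] [ChartedSpace (Cm n) Z]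
    [TopologicalSpace Y] [ChartedSpace (Cm p) Y] {f : Z → Y} {y : Y}
    (h : IsImmE n p d m f y) : TK.TE.NDegE n p d m 0 f y := by
  classical
  obtain ⟨E, Γ, _, _, _, _, _, _, 𝓕, q, χ, t, ht, hfi, hM, hty, himm⟩ := h
  obtain ⟨e⟩ : Nonempty E := inferInstance
  set S' := H603.TE.sub (𝓕.at t ht) (H603.TE.core Γ m) with hS'
  obtain ⟨γ, i, z, hz, -⟩ := S'.cover e
  have hz3 : z ∈ ball (0 : Cm d) 3 := by
    rw [mem_ball_zero_iff]
    linarith
  -- the derivatives of the additive functions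
  let T : Set (Cm d →L[ℂ] ℂ) := {l | ∃ h c, TK.Add S' h c ∧ l = fderiv ℂ (fun z => h (S'.σ i z)) z}
  have hspan : ∀ k : Fin d, (ContinuousLinearMap.proj k : Cm d →L[ℂ] ℂ) ∈ Submodule.span ℂ T := by
    intro k
    by_contra hk
    obtain ⟨φ, hφ, hφT⟩ := Submodule.exists_dual_map_eq_bot_of_notMem hk inferInstance
    -- `φ` is the evaluation at a vector
    let B : Cm d → ((Cm d →L[ℂ] ℂ) →ₗ[ℂ] ℂ) := fun ξ =>
      { toFun := fun l => l ξ
        map_add' := fun _ _ => rfl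
        map_smul' := fun _ _ => rfl }
    let ξ : Cm d := fun k => φ (ContinuousLinearMap.proj k)
    have hξ : ∀ l : Cm d →L[ℂ] ℂ, φ l = l ξ := by
      intro l
      have h1 : l = ∑ k, l (Pi.single k 1) • (ContinuousLinearMap.proj k : Cm d →L[ℂ] ℂ) := by
        ext v
        simp only [ContinuousLinearMap.sum_apply, ContinuousLinearMap.smul_apply,
          ContinuousLinearMap.proj_apply, smul_eq_mul]
        conv_lhs => rw [← Finset.univ_sum_single v, map_sum]
        refine Finset.sum_congr rfl fun j _ => ?_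
        have h2 : (Pi.single j (v j) : Cm d) = v j • (Pi.single j 1 : Cm d) := by
          rw [← Pi.single_smul, smul_eq_mul, mul_one]
        rw [h2, map_smul, smul_eq_mul, mul_comm]
      have h3 : l ξ = ∑ k, l (Pi.single k 1) * φ (ContinuousLinearMap.proj k) := by
        have := congrArg (fun T : Cm d →L[ℂ] ℂ => T ξ) h1
        simp only [ContinuousLinearMap.sum_apply, ContinuousLinearMap.smul_apply,
          ContinuousLinearMap.proj_apply, smul_eq_mul] at this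
        exact this
      rw [h3]
      conv_lhs => rw [h1]
      rw [map_sum]
      refine Finset.sum_congr rfl fun k _ => ?_
      rw [map_smul, smul_eq_mul]
    have hξ0 : ξ ≠ 0 := by
      intro h0
      apply hφ
      rw [hξ, h0, map_zero]
    obtain ⟨g, c, hg, hg0⟩ := himm i z hz3 ξ hξ0
    apply hg0
    have h4 : φ (fderiv ℂ (fun z => g (S'.σ i z)) z) = 0 := by
      have h5 : φ (fderiv ℂ (fun z => g (S'.σ i z)) z) ∈ (Submodule.span ℂ T).map φ :=
        Submodule.mem_map_of_mem (Submodule.subset_span ⟨g, c, hg, rfl⟩)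
      rw [hφT] at h5
      exact h5
    rw [hξ] at h4
    exact h4
  have hli : LinearIndependent ℂ (fun k : Fin d => (ContinuousLinearMap.proj k : Cm d →L[ℂ] ℂ)) := by
    refine H364.UD.surjective_iff.1 fun η => ⟨η, ?_⟩
    funext k
    rfl
  obtain ⟨t', ht', hti⟩ := H364.UD.exists_indep hli hspan
  choose g c hg hgt using ht'
  have hsurj := H364.UD.surjective_iff.2 hti
  refine ⟨E, Γ, inferInstance, inferInstance, inferInstance, inferInstance, inferInstance,
    inferInstance, 𝓕, q, χ, t, ht, hfi, hM, hty, i, z, hz3, fun _ e k => g k e,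
    fun _ a => ⟨c a, hg a⟩, ?_, fun b => ⟨0, Subsingleton.elim _ _⟩⟩
  -- the determinant
  show (Matrix.of fun j k => TK.dd k (fun z => g j (S'.σ i z)) z).det ≠ 0
  set M : Matrix (Fin d) (Fin d) ℂ := Matrix.of fun j k => TK.dd k (fun z => g j (S'.σ i z)) z
    with hM'
  have hMv : ∀ v : Cm d, M.mulVec v = fun j => t' j v := by
    intro v
    funext j
    have h1 : t' j v = ∑ k, t' j (Pi.single k 1) * v k := by
      conv_lhs => rw [← Finset.univ_sum_single v, map_sum]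
      refine Finset.sum_congr rfl fun k _ => ?_
      have h2 : (Pi.single k (v k) : Cm d) = v k • (Pi.single k 1 : Cm d) := by
        rw [← Pi.single_smul, smul_eq_mul, mul_one]
      rw [h2, map_smul, smul_eq_mul, mul_comm]
    rw [h1, hgt j]
    rfl
  have hMs : Function.Surjective M.mulVec := by
    intro η
    obtain ⟨v, hv⟩ := hsurj η
    exact ⟨v, by rw [hMv]; exact hv⟩
  have hu : IsUnit M := Matrix.mulVec_surjective_iff_isUnit.1 hMs
  exact ((Matrix.isUnit_iff_isUnit_det M).1 hu).ne_zero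

/-- the Gauss map has rank at most `d` (as `H303.TE.ndegE_le`) -/
theorem ndegE_le {n p d m r : ℕ} {Z Y : Type} [TopologicalSpace Z]
    [ChartedSpace (Cm n) Z] [TopologicalSpace Y] [ChartedSpace (Cm p) Y] {f : Z → Y} {y : Y}
    (h : TK.TE.NDegE n p d m r f y) : r ≤ d := by
  obtain ⟨E, Γ, _, _, _, _, _, _, 𝓕, q, χ, t, ht, _, -, -, i, z, -, h', -, -, hs⟩ := h
  let S := H603.TE.sub (𝓕.at t ht) (H603.TE.core Γ m)
  let L : Cm d →ₗ[ℂ] (Fin r → ℂ) := LinearMap.pi fun k : Fin r =>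
    (fderiv ℂ (fun u => S.minor (h' k.succ) i u / S.minor (h' 0) i u) z :
      Cm d →ₗ[ℂ] ℂ)
  have hL : Function.Surjective L := hs
  have h1 := LinearMap.finrank_le_finrank_of_surjective hL
  rw [Module.finrank_fin_fun] at h1
  exact h1.trans (le_of_eq (Module.finrank_fin_fun ℂ))

/-! ### The preimage of the complement of `S` is connected -/

theorem preconn_pre {p d : ℕ} {X Y : Type} [TopologicalSpace X]
    [ChartedSpace (Cm (p + d)) X] [IsManifold 𝓘(ℂ, Cm (p + d)) ω X] [TopologicalSpace Y]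
    [ChartedSpace (Cm p) Y] [IsManifold 𝓘(ℂ, Cm p) ω Y] {f : X → Y} {S : Set Y}
    (hf : ContMDiff 𝓘(ℂ, Cm (p + d)) 𝓘(ℂ, Cm p) ω f) (hS : IsClosed S)
    (hP : IsProperFibration (n := p + d) (p := p) f S) (hpre : IsPreconnected Sᶜ) :
    IsPreconnected (f ⁻¹' S)ᶜ := by
  rw [isPreconnected_iff_subset_of_disjoint]
  intro u v hu hv huv hemp
  have hdis : ∀ x, f x ∉ S → x ∈ u → x ∈ v → False := by
    intro x hx h1 h2
    have h3 : x ∈ (f ⁻¹' S)ᶜ ∩ (u ∩ v) := ⟨hx, h1, h2⟩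
    rw [hemp] at h3
    exact h3
  have hfib : ∀ y, y ∉ S → f ⁻¹' {y} ⊆ u ∨ f ⁻¹' {y} ⊆ v := by
    intro y hy
    have h1 := (hP.connected y hy).isPreconnected
    rw [isPreconnected_iff_subset_of_disjoint] at h1
    refine h1 u v hu hv (fun x hx => huv ?_) ?_
    · show f x ∉ S
      have h2 : f x = y := hx
      rwa [h2]
    · rw [eq_empty_iff_forall_notMem]
      rintro x ⟨hx, h2, h3⟩
      have h4 : f x = y := hx
      exact hdis x (by rwa [h4]) h2 h3
  have hopen : ∀ W : Set X, IsOpen W → IsOpen (f '' ((f ⁻¹' S)ᶜ ∩ W)) := by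
    intro W hW
    rw [isOpen_iff_mem_nhds]
    rintro _ ⟨x, ⟨hx, hxW⟩, rfl⟩
    have h1 := H713.SA.nhds_le_map (hf x) (hP.submersive x hx)
    have h2 : (f ⁻¹' S)ᶜ ∩ W ∈ 𝓝 x :=
      inter_mem ((hS.preimage hf.continuous).isOpen_compl.mem_nhds hx) (hW.mem_nhds hxW)
    exact h1 (image_mem_map h2)
  have hcov : Sᶜ ⊆ f '' ((f ⁻¹' S)ᶜ ∩ u) ∪ f '' ((f ⁻¹' S)ᶜ ∩ v) := by
    intro y hy
    obtain ⟨x, hx⟩ := (hP.connected y hy).nonempty
    have hxy : f x = y := hx
    have hxS : f x ∉ S := by rw [hxy]; exact hy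
    rcases huv hxS with h1 | h1
    · exact Or.inl ⟨x, ⟨hxS, h1⟩, hxy⟩
    · exact Or.inr ⟨x, ⟨hxS, h1⟩, hxy⟩
  have hempt : Sᶜ ∩ (f '' ((f ⁻¹' S)ᶜ ∩ u) ∩ f '' ((f ⁻¹' S)ᶜ ∩ v)) = ∅ := by
    rw [eq_empty_iff_forall_notMem]
    rintro y ⟨hy, ⟨x, ⟨hx, hxu⟩, hxy⟩, ⟨x', ⟨hx', hx'v⟩, hx'y⟩⟩
    rcases hfib y hy with h1 | h1
    · exact hdis x' hx' (h1 hx'y) hx'v
    · exact hdis x hx hxu (h1 hxy)
  rcases (isPreconnected_iff_subset_of_disjoint.1 hpre) _ _ (hopen u hu) (hopen v hv) hcov hempt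
    with h | h
  · left
    intro x hx
    obtain ⟨x', ⟨hx', hx'u⟩, he⟩ := h (show f x ∈ Sᶜ from hx)
    rcases hfib (f x) hx with h1 | h1
    · exact h1 rfl
    · exact (hdis x' hx' hx'u (h1 he)).elim
  · right
    intro x hx
    obtain ⟨x', ⟨hx', hx'v⟩, he⟩ := h (show f x ∈ Sᶜ from hx)
    rcases hfib (f x) hx with h1 | h1
    · exact (hdis x' hx' (h1 he) hx'v).elim
    · exact h1 rfl

/-! ### The inequality -/

/-- the inequality, if the coverings number `m` of the fibres are immersed in tori -/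
theorem main (orb : OrbMStmt) (orbD : OrbDStmt) (alg : AlgStmt) (has : H511.UD.HasUDStmt)
    (kod : KodRUStmt) (lift : TU.LiftTStmt) (tame : TU.TameOKStmt) (compl : ComplStmt)
    {p d m r : ℕ} {X Y : Type} [TopologicalSpace X]
    [ChartedSpace (Cm (p + d)) X] [TopologicalSpace Y] [ChartedSpace (Cm p) Y] {f : X → Y}
    {Δ : Set X → ℝ} (hd : 0 < d) (h : H511.Surf.IsFibration (Cm (p + d)) (Cm p) f Δ)
    {w : Chart (p + d) X → Cm (p + d) → Matrix (Fin (p + d)) (Fin (p + d)) ℂ} (hw : IsKahler w)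
    {S : Set Y} (hS : IsSmallSet (Cm p) S)
    (hP : ∀ S', S ⊆ S' → IsClosed S' → IsProperFibration (n := p + d) (p := p) f S')
    (hne : Sᶜ.Nonempty) (hN : ∀ y ∉ S, TK.TE.NDegE (p + d) p d m r f y)
    (hN' : ∀ y ∉ S, ¬ TK.TE.NDegE (p + d) p d m (r + 1) f y)
    (himm : ∀ y ∉ S, IsImmE (p + d) p d m f y)
    (hin : ∀ D, Δ D ≠ 0 → ∀ y ∉ S, ¬ f ⁻¹' {y} ⊆ D) :
    ∃ H : ℕ → Set Y, (∀ k, IsThinSet (Cm p) (H k)) ∧ ∀ y, (∀ k, y ∉ H k) →
      ∀ (F : Type) [TopologicalSpace F] [T2Space F] [ChartedSpace (Cm d) F] (i : F → X),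
        H511.Surf.IsFibre (Cm (p + d)) (Cm d) f y i →
        TZ.S.kodR (Cm (p + d)) (Cm d) i Δ + TZ.S.kodF (p + d) p Δ (id : X → X) f ≤
          TZ.S.kodX (Cm (p + d)) Δ := by
  classical
  have : T2Space X := h.hausdorff.1
  have : T2Space Y := h.hausdorff.2
  have : CompactSpace X := h.compact
  have : ConnectedSpace X := h.connected
  have : IsManifold 𝓘(ℂ, Cm (p + d)) ω X := h.manifold.1
  have : IsManifold 𝓘(ℂ, Cm p) ω Y := h.manifold.2
  set 𝒜 : Set (Set X) := {D | Δ D ≠ 0} with h𝒜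
  have hfin : 𝒜.Finite := h.snc.1
  have hprime : ∀ D ∈ 𝒜, J.IsPrime (Cm (p + d)) D := h.snc.2.1
  have hΔ0 : ∀ D, 0 ≤ Δ D := fun D => (snc01 (JB.snc h.snc) D).1
  have hsurj : Function.Surjective f := fun y => (h.fibres y).nonempty
  have : PreconnectedSpace Y := by
    rw [preconnectedSpace_iff_univ, ← hsurj.range_eq]
    exact isPreconnected_range h.hol.continuous
  have hpre := (compl p Y S hS).2
  have hPS := hP S subset_rfl hS.1
  have hpreX : IsPreconnected (f ⁻¹' S)ᶜ := preconn_pre h.hol hS.1 hPS hpre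
  obtain ⟨g, n, b, nb, Q, QB, ι, U, π, ϖ, j, ℓ, L, u, hO, hrb, hG⟩ :=
    orb p d m r X Y f S w hd h.hol hPS hpre hw hN hN' himm hne
  obtain ⟨Lw, hD⟩ := orbD p d n nb g b X Y (KTame w) f S Q QB ι U π ϖ j ℓ L u 𝒜 hd h.hol hS.1
    hpreX hO hfin hprime
  have hU := alg d n nb (Cm (p + d)) (Cm p) X Y (EuclideanSpace ℂ (Fin g))
    (EuclideanSpace ℂ (Fin b)) (KTame w) f S Q QB ι U π ϖ j ℓ L u 𝒜 Lw h.hol hO hD
  obtain ⟨s, S', hsd, hSS, hS', hr, hr1⟩ := H364.UD.gen_rank_UD h.hol hS hpre hne hPS hU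
    (fun a x β W hL hx ξ => by
      obtain ⟨w', h1, -⟩ := hL
      exact hO.imm a x β (hD.toL a x β w' h1) ξ)
    (fun a x β W hL hx l => by
      obtain ⟨w', h1, -⟩ := hL
      exact hO.full a x β (hD.toL a x β w' h1) l) hfin hprime
  let e₀ : Cm (p + d) ≃L[ℂ] (Cm p × Cm d) := ContinuousLinearEquiv.ofFinrankEq (by
    simp)
  have h1 : ((s : ℕ∞) : WithBot ℕ∞) + TZ.S.kodF (p + d) p Δ (id : X → X) f ≤
      TZ.S.kodX (Cm (p + d)) Δ := by
    refine H303.UF.first_of fun j₂ h₂ => ?_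
    exact lift (p + d) p X Y (Cm d) (KTame w) f S' e₀ Δ s j₂
      (tame (p + d) d X w hw.toIsHermitian) h.hol hS' (hP S' hSS hS'.1).submersive h.snc
      (fun y hy => hasForms_mono hSS (has d s n (Cm (p + d)) (Cm p) X Y
        (EuclideanSpace ℂ (Fin g)) (KTame w) f S Q ι U π 𝒜 _ e₀ Δ hd h.hol hU
        hfin hprime hΔ0 (fun D hD => lt_of_le_of_ne (hΔ0 D) (Ne.symm hD)) y
        (fun h3 => hy (hSS h3)) (hr y hy))) h₂
  obtain ⟨H, hH, hsub⟩ := hS'.2
  refine ⟨H, hH, fun y hy F _ _ _ i hi => ?_⟩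
  have hyS' : y ∉ S' := by
    intro h2
    obtain ⟨k, hk⟩ := mem_iUnion.1 (hsub h2)
    exact hy k hk
  have hyS : y ∉ S := fun h2 => hyS' (hSS h2)
  have hk : TZ.S.kodR (Cm (p + d)) (Cm d) i Δ ≤ ((s : ℕ∞) : WithBot ℕ∞) :=
    kod p d n nb g b r s X Y (KTame w) f Δ S Q QB ι U π ϖ j ℓ L u Lw y F i hd h.hol hPS h.snc hO
      hD hyS (fun D hD' => hin D hD' y hyS) hrb (hG y hyS) (hr1 y hyS) hi
  exact (add_le_add hk le_rfl).trans h1

/-- the inequality, if the coverings number `k` of the fibres are immersed in tori off a small set -/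
theorem ud_core (orb : OrbMStmt) (orbD : OrbDStmt) (alg : AlgStmt) (has : H511.UD.HasUDStmt)
    (kod : KodRUStmt) (deg : TK.TE.DegEStmt) (compl : ComplStmt) (fi : FibInStmt)
    (lift : TU.LiftTStmt) (tame : TU.TameOKStmt)
    {p d k : ℕ} {X Y : Type} [TopologicalSpace X]
    [ChartedSpace (Cm (p + d)) X] [TopologicalSpace Y] [ChartedSpace (Cm p) Y] {f : X → Y}
    {Δ : Set X → ℝ} (hd : 0 < d) (h : H511.Surf.IsFibration (Cm (p + d)) (Cm p) f Δ)
    {w : Chart (p + d) X → Cm (p + d) → Matrix (Fin (p + d)) (Fin (p + d)) ℂ} (hw : IsKahler w)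
    {S₁ : Set Y}
    (hP : ∀ S', S₁ ⊆ S' → IsClosed S' → IsProperFibration (n := p + d) (p := p) f S')
    (hS₂ : IsSmallSet (Cm p) (S₁ ∪ {y | ¬ IsImmE (p + d) p d k f y})) :
    ∃ H : ℕ → Set Y, (∀ k, IsThinSet (Cm p) (H k)) ∧ ∀ y, (∀ k, y ∉ H k) →
      ∀ (F : Type) [TopologicalSpace F] [T2Space F] [ChartedSpace (Cm d) F] (i : F → X),
        H511.Surf.IsFibre (Cm (p + d)) (Cm d) f y i →
        TZ.S.kodR (Cm (p + d)) (Cm d) i Δ + TZ.S.kodF (p + d) p Δ (id : X → X) f ≤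
          TZ.S.kodX (Cm (p + d)) Δ := by
  classical
  have : T2Space X := h.hausdorff.1
  have : T2Space Y := h.hausdorff.2
  have : CompactSpace X := h.compact
  have : ConnectedSpace X := h.connected
  have : IsManifold 𝓘(ℂ, Cm (p + d)) ω X := h.manifold.1
  have : IsManifold 𝓘(ℂ, Cm p) ω Y := h.manifold.2
  have hsurj : Function.Surjective f := fun y => (h.fibres y).nonempty
  have : PreconnectedSpace Y := by
    rw [preconnectedSpace_iff_univ, ← hsurj.range_eq]
    exact isPreconnected_range h.hol.continuous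
  have : Nonempty Y := by
    obtain ⟨x⟩ : Nonempty X := inferInstance
    exact ⟨f x⟩
  set S₂ : Set Y := S₁ ∪ {y | ¬ IsImmE (p + d) p d k f y} with hS₂d
  have h12 : S₁ ⊆ S₂ := subset_union_left
  have himm : ∀ y ∉ S₂, IsImmE (p + d) p d k f y := by
    intro y hy
    by_contra h1
    exact hy (Or.inr h1)
  -- the rank of the Gauss maps
  let P : ℕ → Prop := fun R => ∃ y ∉ S₂, TK.TE.NDegE (p + d) p d k R f y
  have hP0 : P 0 := by
    obtain ⟨y, hy⟩ := (compl p Y S₂ hS₂).1.nonempty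
    exact ⟨y, hy, nDegE_of_imm (himm y hy)⟩
  have hPd : ∀ R, P R → R ≤ d := by
    rintro R ⟨y, -, hy⟩
    exact ndegE_le hy
  have hR : P (Nat.findGreatest P d) := Nat.findGreatest_spec (Nat.zero_le d) hP0
  set R := Nat.findGreatest P d with hRdef
  have hN' : ∀ y ∉ S₂, ¬ TK.TE.NDegE (p + d) p d k (R + 1) f y := by
    intro y hy hy'
    have h3 : P (R + 1) := ⟨y, hy, hy'⟩
    have h4 := Nat.le_findGreatest (P := P) (hPd _ h3) h3
    omega
  obtain ⟨S₃, h23, hS₃, hN⟩ := deg p d k R X Y f S₂ w hd h.hol hsurj (hP S₂ h12 hS₂.1) hS₂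
    (compl p Y S₂ hS₂).2 hw hR
  obtain ⟨S₄, h34, hS₄, hin⟩ := fibIn_fin fi hd h.hol (S := S₃)
    (fun S' h7 h8 => hP S' ((h12.trans h23).trans h7) h8) hS₃ h.snc.1.toFinset
    (fun D hD => h.snc.2.1 D (h.snc.1.mem_toFinset.1 hD))
  have h24 := h23.trans h34
  exact main orb orbD alg has kod lift tame compl hd h hw hS₄
    (fun S' h7 h8 => hP S' ((h12.trans h24).trans h7) h8) (compl p Y S₄ hS₄).1.nonempty
    (fun y hy => hN y fun h5 => hy (h34 h5)) (fun y hy => hN' y fun h5 => hy (h24 h5))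
    (fun y hy => himm y fun h5 => hy (h24 h5))
    (fun D hD y hy => hin D (h.snc.1.mem_toFinset.2 hD) y hy)

/-- **T-UD** from the blocks -/
theorem ud (orb : OrbMStmt) (orbD : OrbDStmt) (alg : AlgStmt) (has : H511.UD.HasUDStmt)
    (kod : KodRUStmt) (immO : ImmOpenStmt) (fibI : FibImmStmt) (deg : TK.TE.DegEStmt)
    (crit : CritStmt) (compl : ComplStmt) (fi : FibInStmt) (lift : TU.LiftTStmt)
    (tame : TU.TameOKStmt) : TUDStmt := by
  classical
  intro p d k X Y _ _ _ _ f Δ hd h hw hgen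
  obtain ⟨w, hw⟩ := hw
  have : T2Space X := h.hausdorff.1
  have : T2Space Y := h.hausdorff.2
  have : CompactSpace X := h.compact
  have : ConnectedSpace X := h.connected
  have : IsManifold 𝓘(ℂ, Cm (p + d)) ω X := h.manifold.1
  have : IsManifold 𝓘(ℂ, Cm p) ω Y := h.manifold.2
  have hsurj : Function.Surjective f := fun y => (h.fibres y).nonempty
  have : PreconnectedSpace Y := by
    rw [preconnectedSpace_iff_univ, ← hsurj.range_eq]
    exact isPreconnected_range h.hol.continuous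
  have : Nonempty Y := by
    obtain ⟨x⟩ : Nonempty X := inferInstance
    exact ⟨f x⟩
  obtain ⟨S₁, hS₁, hP⟩ := crit (p + d) p X Y f h.hol h.fibres
  have hP₁ := hP S₁ subset_rfl hS₁.1
  obtain ⟨H₀, hH₀, hg⟩ := hgen
  have himm₀ : ∀ y ∉ S₁, (∀ j, y ∉ H₀ j) → IsImmE (p + d) p d k f y := by
    intro y hy hyH
    obtain ⟨F, _, _, _, i, hi, hk, hG⟩ := hg y hyH
    exact fibI p d k X Y f S₁ hd h.hol hP₁ y hy F i hi hk hG
  -- the coverings are immersed off a small set
  set S₂ : Set Y := S₁ ∪ {y | ¬ IsImmE (p + d) p d k f y} with hS₂d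
  have h12 : S₁ ⊆ S₂ := subset_union_left
  have hc₂ : IsClosed S₂ := by
    rw [← isOpen_compl_iff, isOpen_iff_mem_nhds]
    intro y hy
    rw [hS₂d, mem_compl_iff, mem_union, not_or] at hy
    obtain ⟨hy1, hy2⟩ := hy
    have hy3 : IsImmE (p + d) p d k f y := not_not.1 hy2
    filter_upwards [immO p d k X Y f S₁ w hd h.hol hP₁ (compl p Y S₁ hS₁).2 hw y hy1 hy3,
      hS₁.1.isOpen_compl.mem_nhds hy1] with y' h1 h2 h3
    rcases h3 with h3 | h3
    · exact h2 h3
    · exact h3 h1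
  have hS₂ : IsSmallSet (Cm p) S₂ := by
    obtain ⟨H₁, hH₁, hsub⟩ := hS₁.2
    refine ⟨hc₂, fun j => if j % 2 = 0 then H₁ (j / 2) else H₀ (j / 2), fun j => ?_, ?_⟩
    · dsimp only
      split_ifs
      · exact hH₁ _
      · exact hH₀ _
    · intro y hy
      have h1 : y ∈ S₁ → y ∈ ⋃ j, (if j % 2 = 0 then H₁ (j / 2) else H₀ (j / 2)) := by
        intro h2
        obtain ⟨j, hj⟩ := mem_iUnion.1 (hsub h2)
        refine mem_iUnion.2 ⟨2 * j, ?_⟩
        have h5 : (2 * j) / 2 = j := by omega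
        have h6 : (2 * j) % 2 = 0 := by omega
        rw [h5, h6, if_pos rfl]
        exact hj
      rcases hy with hy | hy
      · exact h1 hy
      · by_cases h2 : y ∈ S₁
        · exact h1 h2
        · have h3 : ∃ j, y ∈ H₀ j := by
            by_contra h4
            push Not at h4
            exact hy (himm₀ y h2 h4)
          obtain ⟨j, hj⟩ := h3
          refine mem_iUnion.2 ⟨2 * j + 1, ?_⟩
          have h5 : (2 * j + 1) / 2 = j := by omega
          have h6 : (2 * j + 1) % 2 = 1 := by omega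
          rw [h5, h6, if_neg one_ne_zero]
          exact hj
  exact ud_core orb orbD alg has kod deg compl fi lift tame hd h hw hP hS₂

end Vale.Agent.P281.H383.UD
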