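import Vale.Agent.P281.H383.UD.Core
import Vale.Agent.P281.H383.UL.Fin
import Vale.Agent.P281.H303.UD.OrbFin
import Vale.Agent.P281.H511.UD.Alg
import Vale.Agent.P281.H511.UD.Has
import Vale.Agent.P281.H83.ImmOpen
import Vale.Agent.P281.H83.FibImm
import Vale.Agent.P281.H303.TD.Fin
import Vale.Agent.P281.H349.UK.Fin

/-!
# P281, project T-UD (helper383): all the blocks
-/

open Set Filter Metric Vale.Agent.P281 Vale.Agent.P281.H713
open Vale.Agent.P272.K (Chart IsKahler IsHermitian)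
open Vale.Agent.P281.H713.TZ Vale.Agent.P281.H64
open Vale.Agent.P281.H64.Gen
open Vale.Agent.P281.H64.Thin (IsThinSet)
open Vale.Agent.P281.H713.TZ
open scoped Topology ContDiff Manifold

set_option linter.all false

noncomputable section

namespace Vale.Agent.P281.H383.UD

open Vale.Agent.P281.H303.UF

/-- **T-UD** -/
theorem tud : H303.UD.TUDStmt :=
  ud (H303.UD.orbM TK.inputs H485.U.tameBound (H485.U.norm1 H864.K.e1)) H383.UL.orbD
    H511.UD.algStmt H511.UD.hasUD H349.UK.kodRU (H83.immOpen_of TK.inputs)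
    (H83.fibImm_of H152.K.ab) (H969.E.degE_of_inputs TK.inputs) crit H383.Gen.compl
    H364.TD.fibIn H383.U.liftT H383.U.tameOK

/-- the inequality, if the coverings number `k` of the fibres are immersed in tori off a small set -/
theorem tud_core {p d k : ℕ} {X Y : Type} [TopologicalSpace X]
    [ChartedSpace (Cm (p + d)) X] [TopologicalSpace Y] [ChartedSpace (Cm p) Y] {f : X → Y}
    {Δ : Set X → ℝ} (hd : 0 < d) (h : H511.Surf.IsFibration (Cm (p + d)) (Cm p) f Δ)
    {w : Chart (p + d) X → Cm (p + d) → Matrix (Fin (p + d)) (Fin (p + d)) ℂ} (hw : IsKahler w)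
    {S₁ : Set Y}
    (hP : ∀ S', S₁ ⊆ S' → IsClosed S' → IsProperFibration (n := p + d) (p := p) f S')
    (hS₂ : IsSmallSet (Cm p) (S₁ ∪ {y | ¬ H303.UD.IsImmE (p + d) p d k f y})) :
    ∃ H : ℕ → Set Y, (∀ k, IsThinSet (Cm p) (H k)) ∧ ∀ y, (∀ k, y ∉ H k) →
      ∀ (F : Type) [TopologicalSpace F] [T2Space F] [ChartedSpace (Cm d) F] (i : F → X),
        H511.Surf.IsFibre (Cm (p + d)) (Cm d) f y i →
        TZ.S.kodR (Cm (p + d)) (Cm d) i Δ + TZ.S.kodF (p + d) p Δ (id : X → X) f ≤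
          TZ.S.kodX (Cm (p + d)) Δ :=
  ud_core (H303.UD.orbM TK.inputs H485.U.tameBound (H485.U.norm1 H864.K.e1)) H383.UL.orbD
    H511.UD.algStmt H511.UD.hasUD H349.UK.kodRU (H969.E.degE_of_inputs TK.inputs)
    H383.Gen.compl H364.TD.fibIn H383.U.liftT H383.U.tameOK hd h hw hP hS₂

end Vale.Agent.P281.H383.UD
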